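import Vale.Agent.P150.Beta1.Algebra.Chain

/-!
# The expressions of AMP started from a configuration

The matrices of the shared definitions are values of formal expressions, with sizes bounded by
functions of the index alone. The identities used by the rule are restated for them.
-/

namespace Vale.Agent.P150.Beta1.Algebra

open Finset Real

variable {ι : Type*} [Fintype ι]

/-- Coefficients of the increments for AMP started at `x`. -/
noncomputable def ampCoef (β : ℝ) (J : ι → ι → ℝ) (y x : ι → ℝ) : Coef ι where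
  v0 := fun i => 1 - ampA β J y x 1 i ^ 2
  g := fun k i => steinG (ampZ β J y x k i) (ampZ β J y x (k + 1) i) (ampDelta β J y x k)
  dlt := ampDelta β J y x
  ons := fun k => onsager β (ampA β J y x k)

/-- The slopes `1 - (ampA a)²`. -/
noncomputable def ampU (β : ℝ) (J : ι → ι → ℝ) (y x : ι → ℝ) (a : ℕ) : ι → ℝ :=
  fun i => 1 - ampA β J y x a i ^ 2

/-- The gradient of `ampZ k` as an expression. -/
noncomputable def gradE (β : ℝ) (J : ι → ι → ℝ) (y x : ι → ℝ) (k : ℕ) : Expr ι :=
  chain β (chainList (ampU β J y x) k)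

lemma onsager_eq [Nonempty ι] (β : ℝ) (m : ι → ℝ) :
    onsager β m = β ^ 2 * avg fun i => 1 - m i ^ 2 := by
  have hn : (Fintype.card ι : ℝ) ≠ 0 := by exact_mod_cast Fintype.card_ne_zero
  simp only [onsager, qav, avg, sum_sub_distrib, sum_const, card_univ, nsmul_one]
  field_simp

variable (β : ℝ) (J : ι → ι → ℝ) (y x : ι → ℝ)

lemma ampT_eq : ∀ k, ampT β J y x k = (ampCoef β J y x).T β (ampU β J y x) k
  | 0 => by simp [ampT, Coef.T, ampCoef]
  | k + 1 => by
    simp only [ampT, Coef.T, ampT_eq k, ampU, ampCoef]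
    rfl

variable [DecidableEq ι]

omit [DecidableEq ι] in
lemma ampG_eq (k : ℕ) : (ampCoef β J y x).g k = ampG β J y x k := rfl

lemma ampL_eq : ∀ k, ampL β J y x k = ((ampCoef β J y x).L k).mat J
  | 0 => rfl
  | 1 => by
    simp [ampL, Coef.L, Expr.mat, Expr.mat_const, ampCoef]
    rfl
  | k + 2 => by
    simp only [ampL, Coef.L, Expr.mat, Expr.mat_const, ampL_eq (k + 1), ampL_eq k]
    simp [ampCoef, sub_eq_add_neg]
    rfl

lemma gradE_zero : (gradE β J y x 0).mat J = Matrix.of J := rfl

lemma gradE_one [Nonempty ι] : (gradE β J y x 1).mat J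
    = Matrix.of J * Matrix.diagonal (ampU β J y x 1) * Matrix.of J
      - onsager β (ampA β J y x 1) • (1 : Matrix ι ι ℝ) := by
  simp only [gradE, chainList, chain, Expr.mat, Expr.mat_const, onsager_eq, sub_eq_add_neg,
    neg_smul]
  rfl

lemma gradE_succ [Nonempty ι] (k : ℕ) : (gradE β J y x (k + 2)).mat J
    = Matrix.of J * Matrix.diagonal (ampU β J y x (k + 2)) * (gradE β J y x (k + 1)).mat J
      - onsager β (ampA β J y x (k + 2)) •
        (Matrix.diagonal (ampU β J y x (k + 1)) * (gradE β J y x k).mat J) := by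
  simp only [gradE, chainList, chain, Expr.mat, Expr.mat_const, onsager_eq, sub_eq_add_neg,
    neg_mul, neg_smul, smul_mul_assoc, Matrix.one_mul]
  rfl

omit [DecidableEq ι] in
/-- Letters in the gradient of `ampZ k`. -/
lemma deg_gradE : ∀ k, (gradE β J y x k).deg ≤ k + 1
  | 0 => le_refl 1
  | 1 => by simp [gradE, chainList, chain, Expr.deg, Expr.const]
  | k + 2 => by
    have h1 := deg_gradE (k + 1)
    have h2 := deg_gradE k
    simp only [gradE, chainList, chain, Expr.deg, Expr.const] at h1 h2 ⊢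
    omega

omit [DecidableEq ι] in
/-- Slopes lie in the unit box. -/
lemma norm_ampU_le (hx : ∀ i, |x i| ≤ 1) : ∀ a, ‖ampU β J y x a‖ ≤ 1 := by
  intro a
  refine (pi_norm_le_iff_of_nonneg zero_le_one).2 fun i => ?_
  have hA : |ampA β J y x a i| ≤ 1 := by
    cases a with
    | zero => exact hx i
    | succ a => exact (abs_tanh_lt_one _).le
  have h2 : ampA β J y x a i ^ 2 ≤ 1 := (sq_le_one_iff_abs_le_one _).2 hA
  rw [norm_eq_abs, abs_le]
  simp only [ampU]
  constructor <;> nlinarith [sq_nonneg (ampA β J y x a i)]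

omit [DecidableEq ι] in
lemma abs_avg_le {u : ι → ℝ} {r : ℝ} (hr : 0 ≤ r) (hu : ‖u‖ ≤ r) : |avg u| ≤ r := by
  rcases isEmpty_or_nonempty ι with h | h
  · simpa [avg] using hr
  rw [avg, abs_div, Nat.abs_cast, div_le_iff₀ (by exact_mod_cast Fintype.card_pos)]
  calc |∑ i, u i| ≤ ∑ i, |u i| := abs_sum_le_sum_abs _ _
    _ ≤ ∑ _i : ι, r := sum_le_sum fun i _ => by
        rw [← norm_eq_abs]; exact (norm_le_pi_norm u i).trans hu
    _ = r * Fintype.card ι := by simp [mul_comm]

omit [DecidableEq ι] in
/-- Size of the gradients. -/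
lemma size_gradE (hx : ∀ i, |x i| ≤ 1) : ∀ k,
    (gradE β J y x k).size ≤ (1 + β ^ 2) ^ k
  | 0 => by simp [gradE, chainList, chain, Expr.size]
  | 1 => by
    have hu := norm_ampU_le β J y x hx 1
    have ha := abs_avg_le zero_le_one hu
    have hc : (Expr.const (-(β ^ 2 * avg (ampU β J y x 1))) : Expr ι).size ≤ β ^ 2 := by
      refine (Expr.size_const_le _).trans ?_
      rw [abs_neg, abs_mul, abs_of_nonneg (sq_nonneg β)]
      exact mul_le_of_le_one_right (sq_nonneg β) ha
    simp only [gradE, chainList, chain, Expr.size, one_mul, mul_one, pow_one]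
    exact add_le_add hu hc
  | k + 2 => by
    have hu := norm_ampU_le β J y x hx (k + 2)
    have hu' := norm_ampU_le β J y x hx (k + 1)
    have ha := abs_avg_le zero_le_one hu
    have hb : (1 : ℝ) ≤ 1 + β ^ 2 := by nlinarith [sq_nonneg β]
    have hc : (Expr.const (-(β ^ 2 * avg (ampU β J y x (k + 2)))) : Expr ι).size ≤ β ^ 2 := by
      refine (Expr.size_const_le _).trans ?_
      rw [abs_neg, abs_mul, abs_of_nonneg (sq_nonneg β)]
      exact mul_le_of_le_one_right (sq_nonneg β) ha
    have h1 := size_gradE hx (k + 1)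
    have h2 := size_gradE hx k
    simp only [gradE, chainList] at h1 h2
    simp only [gradE, chainList, chain, Expr.size, one_mul]
    calc _ ≤ 1 * (1 + β ^ 2) ^ (k + 1) + β ^ 2 * (1 * (1 + β ^ 2) ^ (k + 1)) :=
          add_le_add (mul_le_mul hu h1 (Expr.size_nonneg _) zero_le_one)
            (mul_le_mul hc (mul_le_mul hu' (h2.trans (pow_le_pow_right₀ hb (Nat.le_succ k)))
              (Expr.size_nonneg _) zero_le_one)
              (mul_nonneg (norm_nonneg _) (Expr.size_nonneg _)) (sq_nonneg β))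
      _ = (1 + β ^ 2) ^ (k + 2) := by ring

omit [DecidableEq ι] in
/-- Size of the increments' matrices from bounds on their coefficients. -/
lemma Coef.size_L_le (K : Coef ι) {G : ℝ} (hG : 1 ≤ G) (hv : ‖K.v0‖ ≤ 1) (hg : ∀ k, ‖K.g k‖ ≤ G)
    (hd : ∀ k, |K.dlt k| ≤ G) (hb : ∀ k, |K.ons k| ≤ G) : ∀ k,
    (K.L k).size ≤ (3 * G ^ 2) ^ k
  | 0 => by simpa [Coef.L, Expr.size] using hv
  | 1 => by
    have h1 := (Expr.size_const_le (ι := ι) (K.dlt 0)).trans (hd 0)
    simp only [Coef.L, Expr.size, pow_one]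
    calc _ ≤ (1 * (1 + G)) * G :=
          mul_le_mul (mul_le_mul hv (by linarith) (add_nonneg zero_le_one (Expr.size_nonneg _))
            zero_le_one) (hg 0) (norm_nonneg _) (by positivity)
      _ ≤ _ := by nlinarith
  | k + 2 => by
    have h1 := (Expr.size_const_le (ι := ι) (K.dlt (k + 1))).trans (hd (k + 1))
    have h2 : (Expr.const (-(K.ons (k + 1))) : Expr ι).size ≤ G :=
      (Expr.size_const_le _).trans (by rw [abs_neg]; exact hb (k + 1))
    have i1 := Coef.size_L_le K hG hv hg hd hb (k + 1)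
    have i2 := Coef.size_L_le K hG hv hg hd hb k
    have h3 : (1 : ℝ) ≤ 3 * G ^ 2 := by nlinarith
    simp only [Coef.L, Expr.size]
    calc _ ≤ ((3 * G ^ 2) ^ (k + 1) * (1 + G) + G * (3 * G ^ 2) ^ (k + 1)) * G :=
          mul_le_mul (add_le_add
            (mul_le_mul i1 (by linarith) (add_nonneg zero_le_one (Expr.size_nonneg _))
              (pow_nonneg (by positivity) _))
            (mul_le_mul h2 (i2.trans (pow_le_pow_right₀ h3 (Nat.le_succ k)))
              (Expr.size_nonneg _) (by linarith))) (hg _) (norm_nonneg _) (by positivity)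
      _ = (3 * G ^ 2) ^ (k + 1) * ((1 + 2 * G) * G) := by ring
      _ ≤ _ := by
        rw [pow_succ (3 * G ^ 2) (k + 1)]
        exact mul_le_mul_of_nonneg_left (by nlinarith) (pow_nonneg (by positivity) _)

omit [DecidableEq ι] in
/-- The next field is orthogonal to `A_k`. -/
theorem amp_free_next (k : ℕ) (i : ι) :
    (Expr.mul (gradE β J y x (k + 1)) ((ampCoef β J y x).A k)).free β i = 0 :=
  free_next_A _ _ k i

omit [DecidableEq ι] in
/-- The current field meets `A_k` in the top scalar. -/
theorem amp_free_current (k : ℕ) (i : ι) :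
    (Expr.mul (gradE β J y x k) ((ampCoef β J y x).A k)).free β i
      = β ^ 2 * ampT β J y x k := by
  rw [ampT_eq]
  exact free_chain_A _ _ k i

omit [DecidableEq ι] in
/-- The average pairing of `L_{k+1}` with the gradient of `ampA (k+1)`. -/
theorem amp_avg_grad_L (k : ℕ) :
    avg (fun i => (Expr.mul (.mul (.diag (ampU β J y x (k + 1))) (gradE β J y x k))
      ((ampCoef β J y x).L (k + 1))).free β i) = ampT β J y x (k + 1) := by
  rw [ampT_eq]
  exact avg_free_grad_L _ _ k

omit [DecidableEq ι] in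
/-- Any later field is orthogonal to `L_k`. -/
theorem amp_free_later_L {j k : ℕ} (hjk : k ≤ j) (i : ι) :
    (Expr.mul (gradE β J y x j) ((ampCoef β J y x).L k)).free β i = 0 :=
  free_chain_mul_eq_zero _ _ (by simpa using ((ampCoef β J y x).deg_L k).trans hjk) i

end Vale.Agent.P150.Beta1.Algebra
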