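import Vale.Agent.P150.Beta1.Algebra.Expr

/-!
# Chain words: the gradients of the AMP fields

`chain β [u_a, …, u_1]` is the Wick-ordered word `J u_a J … u_1 J`, built by the recursion of the
AMP gradients. It annihilates `a + 1` levels, so only the top level of its argument matters.
-/

namespace Vale.Agent.P150.Beta1.Algebra

open Finset Real

variable {ι : Type*} [Fintype ι]

/-- The chain word, by the left recursion. -/
noncomputable def chain (β : ℝ) : List (ι → ℝ) → Expr ι
  | [] => .coup
  | [u] => .add (.mul (.mul .coup (.diag u)) .coup) (.const (-(β ^ 2 * avg u)))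
  | u :: v :: l => .add (.mul (.mul .coup (.diag u)) (chain β (v :: l)))
      (.mul (.const (-(β ^ 2 * avg u))) (.mul (.diag v) (chain β l)))

/-- Full annihilation by a chain word. -/
noncomputable def annC (β : ℝ) : List (ι → ℝ) → (State ι →ₗ[ℝ] State ι)
  | [] => ann β
  | u :: l => ann β ∘ₗ topMul u ∘ₗ annC β l

/-- The normal-ordered form of a chain word. -/
noncomputable def chainF (β : ℝ) : List (ι → ℝ) → (State ι →ₗ[ℝ] State ι)
  | [] => opJ β
  | u :: l => push ∘ₗ topMul u ∘ₗ chainF β l + annC β (u :: l)

/-- The list `[U k, …, U 1]`. -/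
def chainList (U : ℕ → ι → ℝ) : ℕ → List (ι → ℝ)
  | 0 => []
  | k + 1 => U (k + 1) :: chainList U k

omit [Fintype ι] in
@[simp] lemma chainList_length (U : ℕ → ι → ℝ) : ∀ k, (chainList U k).length = k
  | 0 => rfl
  | k + 1 => by simp [chainList, chainList_length U k]

omit [Fintype ι] in
lemma topMul_const (c : ℝ) (v : State ι) :
    topMul (fun _ => c) v = c • topMul (fun _ => (1 : ℝ)) v := by
  funext s
  cases s <;> simp

omit [Fintype ι] in
lemma push_topMul_one (v : State ι) : push (topMul (fun _ => (1 : ℝ)) v) = push v := by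
  funext s
  rcases s with _ | ⟨i, _ | ⟨j, t⟩⟩ <;> simp

variable {β : ℝ}

/-- A chain word is its normal-ordered form. -/
theorem chain_op : ∀ l : List (ι → ℝ), (chain β l).op β = chainF β l
  | [] => rfl
  | [u] => LinearMap.ext fun v => by
    simp only [chain, chainF, annC, Expr.op, Expr.const, LinearMap.add_apply, LinearMap.comp_apply,
      opJ_apply, map_add]
    have h := ann_topMul_push β u (fun _ => (1 : ℝ)) v
    rw [push_topMul_one] at h
    rw [h, topMul_const (-(β ^ 2 * avg u)), neg_smul]
    abel
  | u :: w :: l => LinearMap.ext fun v => by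
    simp only [chain, chain_op (w :: l), chain_op l, Expr.op, Expr.const, LinearMap.add_apply,
      LinearMap.comp_apply, chainF, annC, opJ_apply, map_add]
    rw [ann_topMul_push β u w (chainF β l v), topMul_const (-(β ^ 2 * avg u)), neg_smul,
      topMul_topMul (fun _ => (1 : ℝ)) w]
    simp only [one_mul]
    abel

/-- A chain word lowers by at most its number of letters. -/
lemma Low.annC : ∀ (l : List (ι → ℝ)) {q : ℕ} {v : State ι},
    Low (q + l.length + 1) v → Low q (annC β l v)
  | [], _, _, h => Low.ann (by simpa using h)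
  | u :: l, q, v, h => by
    have h1 : Low (q + 1) (Algebra.annC β l v) :=
      Low.annC l (h.mono (by simp only [List.length_cons]; omega))
    exact Low.ann (h1.topMul u)

/-- Too few levels give zero. -/
lemma annC_eq_zero : ∀ (l : List (ι → ℝ)) {v : State ι}, Low l.length v → annC β l v = 0
  | [], _, h => ann_eq_zero h
  | u :: l, v, h => by
    have h1 : Low 0 (annC β l v) := Low.annC l (h.mono (by simp))
    exact ann_eq_zero (h1.topMul u)

/-- Free diagonal of a chain word times an expression. -/
lemma free_chain_mul (l : List (ι → ℝ)) (X : Expr ι) (i : ι) :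
    (Expr.mul (chain β l) X).free β i = annC β l (X.op β vac) [i] := by
  simp only [Expr.free, Expr.op, LinearMap.comp_apply, chain_op]
  cases l with
  | nil => simp [chainF, annC, opJ_apply]
  | cons u l => simp [chainF]

/-- Orthogonality: fewer letters than the chain give a zero free diagonal. -/
theorem free_chain_mul_eq_zero (l : List (ι → ℝ)) (X : Expr ι) (hX : X.deg ≤ l.length) (i : ι) :
    (Expr.mul (chain β l) X).free β i = 0 := by
  have hlow : Low l.length (X.op β vac) := (low_vac.op X).mono (by simpa using hX)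
  rw [free_chain_mul, annC_eq_zero l hlow]
  rfl

lemma free_diag_mul (e : ι → ℝ) (X : Expr ι) (i : ι) :
    (Expr.mul (.diag e) X).free β i = e i * X.free β i := by
  simp [Expr.free, Expr.op]

lemma free_add (X Y : Expr ι) (i : ι) :
    (Expr.add X Y).free β i = X.free β i + Y.free β i := by
  simp [Expr.free, Expr.op]

lemma free_diag (e : ι → ℝ) (i : ι) : (Expr.diag e).free β i = e i := by
  simp [Expr.free, Expr.op, vac]

/-! ### The matrices of the increments -/

/-- Data of the recursion of the increments: initial weights, Stein weights, two scalars. -/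
structure Coef (ι : Type*) where
  v0 : ι → ℝ
  g : ℕ → ι → ℝ
  dlt : ℕ → ℝ
  ons : ℕ → ℝ

/-- The expressions `L_k`. -/
def Coef.L (K : Coef ι) : ℕ → Expr ι
  | 0 => .diag K.v0
  | 1 => .mul (.mul (.diag K.v0) (.add .coup (.const (K.dlt 0)))) (.diag (K.g 0))
  | k + 2 => .mul (.add (.mul (K.L (k + 1)) (.add .coup (.const (K.dlt (k + 1)))))
      (.mul (.const (-(K.ons (k + 1)))) (K.L k))) (.diag (K.g (k + 1)))

/-- The expressions `A_k`, so that `L (k+1) = A k * diag (g k)`. -/
def Coef.A (K : Coef ι) : ℕ → Expr ι
  | 0 => .mul (.diag K.v0) (.add .coup (.const (K.dlt 0)))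
  | k + 1 => .add (.mul (K.L (k + 1)) (.add .coup (.const (K.dlt (k + 1)))))
      (.mul (.const (-(K.ons (k + 1)))) (K.L k))

omit [Fintype ι] in
lemma Coef.L_succ (K : Coef ι) : ∀ k, K.L (k + 1) = .mul (K.A k) (.diag (K.g k))
  | 0 => by simp [Coef.L, Coef.A]
  | k + 1 => by rw [Coef.A, Coef.L]

omit [Fintype ι] in
lemma Coef.deg_L (K : Coef ι) : ∀ k, (K.L k).deg ≤ k
  | 0 => by simp [Coef.L, Expr.deg]
  | 1 => by simp [Coef.L, Expr.deg, Expr.const]
  | k + 2 => by
    have h1 := Coef.deg_L K (k + 1)
    have h2 := Coef.deg_L K k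
    simp only [Coef.L, Expr.deg, Expr.const]
    omega

omit [Fintype ι] in
lemma Coef.deg_A (K : Coef ι) : ∀ k, (K.A k).deg ≤ k + 1
  | 0 => by simp [Coef.A, Expr.deg, Expr.const]
  | k + 1 => by
    have h1 := K.deg_L (k + 1)
    have h2 := K.deg_L k
    simp only [Coef.A, Expr.deg, Expr.const]
    omega

/-- Leading part of `L_k`. -/
noncomputable def Coef.top (K : Coef ι) : ℕ → (State ι →ₗ[ℝ] State ι)
  | 0 => topMul K.v0
  | k + 1 => K.top k ∘ₗ push ∘ₗ topMul (K.g k)

omit [Fintype ι] in
lemma Coef.low_top (K : Coef ι) : ∀ k {p : ℕ} {v : State ι}, Low p v → Low (p + k) (K.top k v)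
  | 0, _, _, h => h.topMul _
  | k + 1, p, v, h => by
    have := K.low_top k ((h.topMul (K.g k)).push)
    exact this.mono (by omega)

/-- At the highest level `A_k` acts as its leading word. -/
lemma Coef.A_top_of_L (K : Coef ι) (k : ℕ)
    (hL : ∀ (p : ℕ) (v : State ι), Low p v → ∀ s : List ι, s.length = p + k + 1 →
      (K.L k).op β v s = K.top k v s)
    (p : ℕ) (v : State ι) (hv : Low p v) (s : List ι) (hs : s.length = p + k + 2) :
    (K.A k).op β v s = K.top k (push v) s := by
  have hann : Low p (ann β v) := (hv.mono (Nat.le_succ p)).ann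
  have hlin : (K.A k).op β v s = (K.L k).op β (opJ β v + topMul (fun _ => K.dlt k) v) s := by
    cases k with
    | zero => simp [Coef.A, Coef.L, Expr.op, Expr.const]
    | succ j =>
      have hzero : (K.L j).op β v s = 0 :=
        hv.op (K.L j) s (by have := K.deg_L j; omega)
      cases s with
      | nil => simp at hs
      | cons a t => simp [Coef.A, Expr.op, Expr.const, hzero]
  have hz : ∀ w : State ι, Low p w → (K.L k).op β w s = 0 := fun w hw =>
    hw.op (K.L k) s (by have := K.deg_L k; omega)
  rw [hlin, map_add, Pi.add_apply, opJ_apply, map_add, Pi.add_apply, hz _ hann,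
    hz _ (hv.topMul _), add_zero, add_zero]
  exact hL (p + 1) (push v) hv.push s (by omega)

/-- At the highest level `L_k` acts as its leading word. -/
lemma Coef.L_top (K : Coef ι) : ∀ (k p : ℕ) (v : State ι), Low p v → ∀ s : List ι,
    s.length = p + k + 1 → (K.L k).op β v s = K.top k v s
  | 0, p, v, _, s, _ => by simp [Coef.L, Coef.top, Expr.op]
  | k + 1, p, v, hv, s, hs => by
    rw [K.L_succ k, Coef.top]
    simp only [Expr.op, LinearMap.comp_apply]
    exact K.A_top_of_L k (K.L_top k) p _ (hv.topMul _) s (by omega)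

lemma Coef.A_top (K : Coef ι) (k p : ℕ) (v : State ι) (hv : Low p v) (s : List ι)
    (hs : s.length = p + k + 2) : (K.A k).op β v s = K.top k (push v) s :=
  K.A_top_of_L k (K.L_top k) p v hv s hs

/-- The nested top scalar. -/
noncomputable def Coef.T (β : ℝ) (K : Coef ι) (U : ℕ → ι → ℝ) : ℕ → ℝ
  | 0 => avg K.v0
  | k + 1 => β ^ 2 * K.T β U k * avg fun i => U (k + 1) i * K.g k i

/-- Complete contraction of the leading word with the chain. -/
lemma annC_top (K : Coef ι) (U : ℕ → ι → ℝ) : ∀ (k : ℕ) (w : State ι),
    annC β (chainList U k) (K.top k (push w))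
      = (β ^ 2 * K.T β U k) • topMul (fun _ => (1 : ℝ)) w
  | 0, w => by
    simp only [chainList, annC, Coef.top, Coef.T]
    rw [← push_topMul_one w, ann_topMul_push]
  | k + 1, w => by
    simp only [chainList, annC, Coef.top, LinearMap.comp_apply]
    rw [annC_top K U k, map_smul, map_smul, topMul_topMul, topMul_topMul]
    rw [← push_topMul_one w, ann_topMul_push, smul_smul, Coef.T]
    congr 1
    simp only [mul_one]
    ring

/-- Orthogonality of the next gradient to `A_k`. -/
theorem free_next_A (K : Coef ι) (U : ℕ → ι → ℝ) (k : ℕ) (i : ι) :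
    (Expr.mul (chain β (chainList U (k + 1))) (K.A k)).free β i = 0 :=
  free_chain_mul_eq_zero _ _ (by simpa using K.deg_A k) i

/-- The only surviving pairing: the top word of `A_k`. -/
theorem free_chain_A_diag (K : Coef ι) (U : ℕ → ι → ℝ) (k : ℕ) (e : ι → ℝ) (i : ι) :
    (Expr.mul (chain β (chainList U k)) (Expr.mul (K.A k) (.diag e))).free β i
      = β ^ 2 * K.T β U k * e i := by
  have hw : Low (ι := ι) 0 (topMul e vac) := low_vac.topMul e
  set v := (K.A k).op β (topMul e vac) with hv
  set w := K.top k (push (topMul e vac)) with hwdef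
  have hdiff : Low k (v - w) := by
    intro s hs
    rcases Nat.lt_or_ge (k + 2) s.length with h | h
    · have h1 : v s = 0 := hw.op (K.A k) s (by have := K.deg_A k; omega)
      have h2 : w s = 0 := K.low_top k hw.push s (by omega)
      simp [h1, h2]
    · have hlen : s.length = 0 + k + 2 := by omega
      simp [hv, hwdef, K.A_top k 0 _ hw s hlen]
  have h0 : annC β (chainList U k) (v - w) = 0 := annC_eq_zero _ (by simpa using hdiff)
  rw [map_sub, sub_eq_zero] at h0
  rw [free_chain_mul]
  simp only [Expr.op, LinearMap.comp_apply]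
  rw [← hv, h0, hwdef, annC_top]
  simp [vac]

/-- The pairing without a trailing diagonal. -/
theorem free_chain_A (K : Coef ι) (U : ℕ → ι → ℝ) (k : ℕ) (i : ι) :
    (Expr.mul (chain β (chainList U k)) (K.A k)).free β i = β ^ 2 * K.T β U k := by
  have h := free_chain_A_diag (β := β) K U k (fun _ => 1) i
  rw [mul_one] at h
  rw [← h]
  have hv : topMul (fun _ => (1 : ℝ)) vac = (vac : State ι) := by
    funext s
    cases s <;> simp [vac]
  simp [Expr.free, Expr.op, hv]

/-- The pairing of `L_{k+1}` with the gradient of `ampA (k+1)`. -/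
theorem free_grad_L (K : Coef ι) (U : ℕ → ι → ℝ) (k : ℕ) (i : ι) :
    (Expr.mul (.mul (.diag (U (k + 1))) (chain β (chainList U k))) (K.L (k + 1))).free β i
      = β ^ 2 * K.T β U k * (U (k + 1) i * K.g k i) := by
  have h := free_chain_A_diag (β := β) K U k (K.g k) i
  simp only [Expr.free, Expr.op, LinearMap.comp_apply] at h
  simp only [K.L_succ, Expr.free, Expr.op, LinearMap.comp_apply, topMul_cons, h]
  ring

/-- Its site average is the next top scalar. -/
theorem avg_free_grad_L (K : Coef ι) (U : ℕ → ι → ℝ) (k : ℕ) :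
    avg (fun i =>
      (Expr.mul (.mul (.diag (U (k + 1))) (chain β (chainList U k))) (K.L (k + 1))).free β i)
      = K.T β U (k + 1) := by
  simp only [free_grad_L, Coef.T, avg, ← mul_sum]
  ring

end Vale.Agent.P150.Beta1.Algebra
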