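import Vale.Agent.P150.Beta1.Algebra.Fock

/-!
# Matrix expressions in `J` and diagonals

Every expression is a bounded combination of words, so `GoodWords` gives free diagonals, small
off-diagonal `ℓ⁴` norm and bounded action, with constants depending only on degree and size.
-/

namespace Vale.Agent.P150.Beta1.Algebra

open Finset Real

/-- Formal expressions. -/
inductive Expr (ι : Type*) where
  | coup : Expr ι
  | diag (e : ι → ℝ) : Expr ι
  | add (X Y : Expr ι) : Expr ι
  | mul (X Y : Expr ι) : Expr ι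

variable {ι : Type*} [Fintype ι]

/-- Multiples of the identity. -/
def Expr.const (c : ℝ) : Expr ι := .diag fun _ => c

/-- Number of letters `J`. -/
def Expr.deg : Expr ι → ℕ
  | .coup => 1
  | .diag _ => 0
  | .add X Y => max X.deg Y.deg
  | .mul X Y => X.deg + Y.deg

/-- Size of the coefficients. -/
noncomputable def Expr.size : Expr ι → ℝ
  | .coup => 1
  | .diag e => ‖e‖
  | .add X Y => X.size + Y.size
  | .mul X Y => X.size * Y.size

/-- Operator of the Fock model. -/
noncomputable def Expr.op (β : ℝ) : Expr ι → (State ι →ₗ[ℝ] State ι)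
  | .coup => opJ β
  | .diag e => topMul e
  | .add X Y => X.op β + Y.op β
  | .mul X Y => X.op β ∘ₗ Y.op β

/-- Free diagonal. -/
noncomputable def Expr.free (β : ℝ) (X : Expr ι) (i : ι) : ℝ := X.op β vac [i]

lemma Expr.size_nonneg : ∀ X : Expr ι, 0 ≤ X.size
  | .coup => zero_le_one
  | .diag e => norm_nonneg e
  | .add X Y => add_nonneg X.size_nonneg Y.size_nonneg
  | .mul X Y => mul_nonneg X.size_nonneg Y.size_nonneg

lemma Expr.size_const_le (c : ℝ) : (Expr.const c : Expr ι).size ≤ |c| :=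
  (pi_norm_le_iff_of_nonneg (abs_nonneg c)).2 fun _ => le_of_eq (norm_eq_abs c)

/-- An expression raises levels by at most its degree. -/
lemma Low.op {β : ℝ} : ∀ (X : Expr ι) {p : ℕ} {v : State ι}, Low p v → Low (p + X.deg) (X.op β v)
  | .coup, _, _, h => h.opJ
  | .diag e, _, _, h => by simpa [Expr.op, Expr.deg] using h.topMul e
  | .add X Y, p, v, h => fun s hs => by
    simp only [Expr.deg] at hs
    simp [Expr.op, Low.op X h s (by omega), Low.op Y h s (by omega)]
  | .mul X Y, p, v, h => (Low.op X (Low.op Y h)).mono (le_of_eq (by simp only [Expr.deg]; omega))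

/-- Concatenation of words, merging the diagonals at the junction. -/
def catWord : (ι → ℝ) → List (ι → ℝ) → (ι → ℝ) → List (ι → ℝ) → (ι → ℝ) × List (ι → ℝ)
  | d, [], d', l' => (fun i => d i * d' i, l')
  | d, e :: r, d', l' => (d, (catWord e r d' l').1 :: (catWord e r d' l').2)

omit [Fintype ι] in
lemma catWord_length : ∀ (l : List (ι → ℝ)) (d d' : ι → ℝ) (l' : List (ι → ℝ)),
    (catWord d l d' l').2.length = l.length + l'.length
  | [], d, d', l' => by simp [catWord]
  | e :: r, d, d', l' => by simp [catWord, catWord_length r]; omega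

omit [Fintype ι] in
lemma catWord_bound : ∀ (l : List (ι → ℝ)) (d d' : ι → ℝ) (l' : List (ι → ℝ)),
    (∀ i, |d i| ≤ 1) → (∀ e ∈ l, ∀ i, |e i| ≤ 1) → (∀ i, |d' i| ≤ 1) →
    (∀ e ∈ l', ∀ i, |e i| ≤ 1) →
      (∀ i, |(catWord d l d' l').1 i| ≤ 1) ∧ ∀ e ∈ (catWord d l d' l').2, ∀ i, |e i| ≤ 1
  | [], d, d', l', hd, _, hd', hl' => by
    refine ⟨fun i => ?_, hl'⟩
    rw [catWord, abs_mul]
    exact mul_le_one₀ (hd i) (abs_nonneg _) (hd' i)
  | e :: r, d, d', l', hd, hl, hd', hl' => by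
    have ih := catWord_bound r e d' l' (hl e (by simp)) (fun f hf => hl f (by simp [hf])) hd' hl'
    refine ⟨hd, fun f hf => ?_⟩
    simp only [catWord, List.mem_cons] at hf
    rcases hf with rfl | hf
    · exact ih.1
    · exact ih.2 f hf

lemma wordOp_cat (β : ℝ) : ∀ (l : List (ι → ℝ)) (d d' : ι → ℝ) (l' : List (ι → ℝ)),
    wordOp β (catWord d l d' l').1 (catWord d l d' l').2 = wordOp β d l ∘ₗ wordOp β d' l'
  | [], d, d', [] => LinearMap.ext fun v => by simp [catWord, wordOp, topMul_topMul]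
  | [], d, d', e' :: r' => LinearMap.ext fun v => by simp [catWord, wordOp, topMul_topMul]
  | e :: r, d, d', l' => LinearMap.ext fun v => by
    simp [catWord, wordOp, wordOp_cat β r e d' l']

variable [DecidableEq ι]

/-- Matrix of an expression. -/
def Expr.mat (J : ι → ι → ℝ) : Expr ι → Matrix ι ι ℝ
  | .coup => Matrix.of J
  | .diag e => Matrix.diagonal e
  | .add X Y => X.mat J + Y.mat J
  | .mul X Y => X.mat J * Y.mat J

lemma Expr.mat_const (J : ι → ι → ℝ) (c : ℝ) :
    (Expr.const c : Expr ι).mat J = c • (1 : Matrix ι ι ℝ) := by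
  simp [Expr.const, Expr.mat, Matrix.smul_one_eq_diagonal]

lemma wordMat_cons (J : ι → ι → ℝ) (d e : ι → ℝ) (r : List (ι → ℝ)) :
    wordMat J d (e :: r) = Matrix.diagonal d * Matrix.of J * wordMat J e r := by
  have key : ∀ (r : List (ι → ℝ)) (A B : Matrix ι ι ℝ),
      r.foldl (fun M e => M * (Matrix.of J * Matrix.diagonal e)) (A * B)
        = A * r.foldl (fun M e => M * (Matrix.of J * Matrix.diagonal e)) B := by
    intro r
    induction r with
    | nil => simp
    | cons a r ih =>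
      intro A B
      rw [List.foldl_cons, List.foldl_cons, Matrix.mul_assoc, ih]
  rw [wordMat, List.foldl_cons, ← Matrix.mul_assoc, key r]
  rfl

lemma wordMat_cat (J : ι → ι → ℝ) : ∀ (l : List (ι → ℝ)) (d d' : ι → ℝ) (l' : List (ι → ℝ)),
    wordMat J (catWord d l d' l').1 (catWord d l d' l').2 = wordMat J d l * wordMat J d' l'
  | [], d, d', [] => by simp [catWord, wordMat, Matrix.diagonal_mul_diagonal]
  | [], d, d', e' :: r' => by
    simp only [catWord, wordMat_cons]
    rw [show wordMat J d [] = Matrix.diagonal d from rfl, ← Matrix.mul_assoc, ← Matrix.mul_assoc,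
      Matrix.diagonal_mul_diagonal]
  | e :: r, d, d', l' => by
    simp [catWord, wordMat_cons, wordMat_cat J r e d' l', Matrix.mul_assoc]

/-- Every expression is a bounded combination of words. -/
theorem Expr.exists_words (β : ℝ) (J : ι → ι → ℝ) : ∀ X : Expr ι,
    ∃ (κ : Type) (_ : Fintype κ) (c : κ → ℝ) (d : κ → ι → ℝ) (l : κ → List (ι → ℝ)),
      X.mat J = ∑ w, c w • wordMat J (d w) (l w) ∧
      X.op β = ∑ w, c w • wordOp β (d w) (l w) ∧
      (∀ w, (l w).length ≤ X.deg ∧ (∀ i, |d w i| ≤ 1) ∧ ∀ e ∈ l w, ∀ i, |e i| ≤ 1) ∧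
      ∑ w, |c w| ≤ X.size
  | .coup => by
    refine ⟨Unit, inferInstance, fun _ => 1, fun _ _ => 1, fun _ => [fun _ => 1], ?_, ?_,
      fun _ => ⟨le_rfl, fun i => by simp, fun e he i => ?_⟩, by simp [Expr.size]⟩
    · simp [Expr.mat, wordMat]
    · refine LinearMap.ext fun v => funext fun s => ?_
      have h1 : ∀ w : State ι, ∀ i : ι, ∀ t, topMul (fun _ => (1 : ℝ)) w (i :: t) = w (i :: t) :=
        fun w i t => by simp
      rcases s with _ | ⟨i, _ | ⟨j, t⟩⟩ <;> simp [Expr.op, wordOp, opJ_apply]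
    · simp only [List.mem_singleton] at he
      simp [he]
  | .diag e => by
    refine ⟨Unit, inferInstance, fun _ => ‖e‖, fun _ => fun i => ‖e‖⁻¹ * e i, fun _ => [], ?_, ?_,
      fun _ => ⟨le_rfl, fun i => ?_, by simp⟩, by simp [Expr.size]⟩
    · ext i j
      rcases eq_or_ne i j with rfl | h
      · rcases eq_or_ne ‖e‖ 0 with h0 | h0
        · simp [Expr.mat, wordMat, norm_eq_zero.1 h0]
        · simp [Expr.mat, wordMat, h0]
      · simp [Expr.mat, wordMat, h]
    · refine LinearMap.ext fun v => funext fun s => ?_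
      cases s with
      | nil => simp [Expr.op, wordOp]
      | cons i t =>
        rcases eq_or_ne ‖e‖ 0 with h0 | h0
        · simp [Expr.op, wordOp, norm_eq_zero.1 h0]
        · simp [Expr.op, wordOp, ← mul_assoc, h0]
    · rw [abs_mul, abs_inv, abs_norm]
      rcases eq_or_ne ‖e‖ 0 with h0 | h0
      · simp [h0]
      · have := norm_le_pi_norm e i
        rw [Real.norm_eq_abs] at this
        rw [inv_mul_le_one₀ ((norm_nonneg e).lt_of_ne' h0)]
        exact this
  | .add X Y => by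
    obtain ⟨κ, hκ, c, d, l, hm, ho, hb, hs⟩ := X.exists_words β J
    obtain ⟨κ', hκ', c', d', l', hm', ho', hb', hs'⟩ := Y.exists_words β J
    refine ⟨κ ⊕ κ', inferInstance, Sum.elim c c', Sum.elim d d', Sum.elim l l', ?_, ?_, ?_, ?_⟩
    · simp [Expr.mat, hm, hm', Fintype.sum_sum_type]
    · simp [Expr.op, ho, ho', Fintype.sum_sum_type]
    · rintro (w | w)
      · exact ⟨(hb w).1.trans (le_max_left _ _), (hb w).2⟩
      · exact ⟨(hb' w).1.trans (le_max_right _ _), (hb' w).2⟩
    · simpa [Expr.size, Fintype.sum_sum_type] using add_le_add hs hs'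
  | .mul X Y => by
    obtain ⟨κ, hκ, c, d, l, hm, ho, hb, hs⟩ := X.exists_words β J
    obtain ⟨κ', hκ', c', d', l', hm', ho', hb', hs'⟩ := Y.exists_words β J
    refine ⟨κ × κ', inferInstance, fun w => c w.1 * c' w.2,
      fun w => (catWord (d w.1) (l w.1) (d' w.2) (l' w.2)).1,
      fun w => (catWord (d w.1) (l w.1) (d' w.2) (l' w.2)).2, ?_, ?_, ?_, ?_⟩
    · simp only [Expr.mat, hm, hm', Fintype.sum_prod_type, Finset.sum_mul, Finset.mul_sum,
        wordMat_cat, smul_mul_smul_comm]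
      rw [sum_comm]
    · refine LinearMap.ext fun v => ?_
      simp only [Expr.op, ho, ho', Fintype.sum_prod_type, wordOp_cat, LinearMap.comp_apply,
        LinearMap.coe_sum, Finset.sum_apply, LinearMap.smul_apply, map_sum, map_smul, smul_sum,
        smul_smul]
      rw [sum_comm]
      simp only [mul_comm]
    · intro w
      obtain ⟨hl, hd, he⟩ := hb w.1
      obtain ⟨hl', hd', he'⟩ := hb' w.2
      refine ⟨?_, catWord_bound _ _ _ _ hd he hd' he'⟩
      rw [catWord_length, Expr.deg]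
      exact add_le_add hl hl'
    · simp only [Fintype.sum_prod_type, abs_mul, ← Finset.mul_sum, ← Finset.sum_mul, Expr.size]
      exact mul_le_mul hs hs' (sum_nonneg fun _ _ => abs_nonneg _) X.size_nonneg

omit [DecidableEq ι] in
/-- Cauchy-Schwarz with weights. -/
lemma sq_comb_le {κ : Type*} [Fintype κ] (c a : κ → ℝ) :
    (∑ w, c w * a w) ^ 2 ≤ (∑ w, |c w|) * ∑ w, |c w| * a w ^ 2 := by
  refine sum_sq_le_sum_mul_sum_of_sq_le_mul univ (fun w _ => abs_nonneg _)
    (fun w _ => mul_nonneg (abs_nonneg _) (sq_nonneg _)) fun w _ => ?_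
  rw [mul_pow, ← sq_abs (c w)]
  nlinarith [sq_nonneg (a w), abs_nonneg (c w)]

omit [DecidableEq ι] in
/-- The same for fourth powers. -/
lemma pow_four_comb_le {κ : Type*} [Fintype κ] (c a : κ → ℝ) :
    (∑ w, c w * a w) ^ 4 ≤ (∑ w, |c w|) ^ 3 * ∑ w, |c w| * a w ^ 4 := by
  have h1 := sq_comb_le c a
  have h2 := sq_comb_le (fun w => |c w|) (fun w => a w ^ 2)
  simp only [abs_abs, ← pow_mul] at h2
  have h0 : 0 ≤ ∑ w, |c w| := sum_nonneg fun _ _ => abs_nonneg _
  calc (∑ w, c w * a w) ^ 4 = ((∑ w, c w * a w) ^ 2) ^ 2 := by ring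
    _ ≤ ((∑ w, |c w|) * ∑ w, |c w| * a w ^ 2) ^ 2 := pow_le_pow_left₀ (sq_nonneg _) h1 2
    _ = (∑ w, |c w|) ^ 2 * (∑ w, |c w| * a w ^ 2) ^ 2 := by ring
    _ ≤ (∑ w, |c w|) ^ 2 * ((∑ w, |c w|) * ∑ w, |c w| * a w ^ 4) :=
      mul_le_mul_of_nonneg_left h2 (sq_nonneg _)
    _ = _ := by ring

/-- Weighted bound used by all three estimates. -/
lemma sum_weight_le {κ : Type*} [Fintype κ] {c q : κ → ℝ} {S C : ℝ} (hs : ∑ w, |c w| ≤ S)
    (hC : 0 ≤ C) (hq : ∀ w, q w ≤ C) : ∑ w, |c w| * q w ≤ S * C :=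
  (sum_le_sum fun w _ => mul_le_mul_of_nonneg_left (hq w) (abs_nonneg _)).trans
    (by rw [← sum_mul]; exact mul_le_mul_of_nonneg_right hs hC)

variable {β C : ℝ} {m : ℕ} {J : ι → ι → ℝ}

lemma goodWords_nonneg (h : GoodWords β m C J) : 0 ≤ C :=
  (sum_nonneg fun _ _ => sq_nonneg _).trans
    ((h.2.2.2 (fun _ => 0) [] (Nat.zero_le m) (fun i => by simp) (by simp)).1)

/-- Free diagonal, uniformly. -/
theorem Expr.diag_le (h : GoodWords β m C J) (X : Expr ι) (hX : X.deg ≤ m) :
    ∑ i, (X.mat J i i - X.free β i) ^ 2 ≤ C * X.size ^ 2 := by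
  obtain ⟨κ, hκ, c, d, l, hm, ho, hb, hs⟩ := X.exists_words β J
  have hC := goodWords_nonneg h
  have hq : ∀ w, ∑ i, (wordMat J (d w) (l w) i i - wordFree β (d w) (l w) i) ^ 2 ≤ C := fun w => by
    have := (h.2.2.2 (d w) (l w) ((hb w).1.trans hX) (hb w).2.1 (hb w).2.2).1
    rwa [freeVal_eq_wordFree β _ _ _ le_rfl] at this
  calc ∑ i, (X.mat J i i - X.free β i) ^ 2
      = ∑ i, (∑ w, c w * (wordMat J (d w) (l w) i i - wordFree β (d w) (l w) i)) ^ 2 := by
        refine sum_congr rfl fun i _ => congrArg (· ^ 2) ?_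
        simp [Expr.free, hm, ho, wordFree, Matrix.sum_apply, mul_sub, sum_sub_distrib]
    _ ≤ ∑ i, (∑ w, |c w|) * ∑ w, |c w| * (wordMat J (d w) (l w) i i
          - wordFree β (d w) (l w) i) ^ 2 := sum_le_sum fun i _ => sq_comb_le _ _
    _ ≤ X.size * (X.size * C) := by
        rw [← mul_sum, sum_comm]
        simp only [← mul_sum]
        exact mul_le_mul hs (sum_weight_le hs hC hq)
          (sum_nonneg fun w _ => mul_nonneg (abs_nonneg _) (sum_nonneg fun _ _ => sq_nonneg _))
          X.size_nonneg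
    _ = _ := by ring

/-- Off-diagonal `ℓ⁴` norm, uniformly. -/
theorem Expr.offdiag_le (h : GoodWords β m C J) (X : Expr ι) (hX : X.deg ≤ m) :
    ∑ i, ∑ j, (if i = j then 0 else X.mat J i j ^ 4) ≤ C * X.size ^ 4 := by
  obtain ⟨κ, hκ, c, d, l, hm, ho, hb, hs⟩ := X.exists_words β J
  have hC := goodWords_nonneg h
  have hq : ∀ w, ∑ i, ∑ j, (if i = j then 0 else wordMat J (d w) (l w) i j ^ 4) ≤ C := fun w =>
    (h.2.2.2 (d w) (l w) ((hb w).1.trans hX) (hb w).2.1 (hb w).2.2).2
  have h0 : ∀ w (i j : ι), 0 ≤ if i = j then 0 else wordMat J (d w) (l w) i j ^ 4 := fun w i j => by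
    split_ifs <;> positivity
  calc ∑ i, ∑ j, (if i = j then 0 else X.mat J i j ^ 4)
      ≤ ∑ i, ∑ j, (∑ w, |c w|) ^ 3 *
          ∑ w, |c w| * (if i = j then 0 else wordMat J (d w) (l w) i j ^ 4) := by
        refine sum_le_sum fun i _ => sum_le_sum fun j _ => ?_
        split_ifs
        · simp
        · rw [hm]
          simp only [Matrix.sum_apply, Matrix.smul_apply, smul_eq_mul]
          exact pow_four_comb_le c _
    _ ≤ X.size ^ 3 * (X.size * C) := by
        simp only [← mul_sum]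
        rw [sum_congr rfl fun i _ => sum_comm, sum_comm]
        simp only [← mul_sum]
        exact mul_le_mul (pow_le_pow_left₀ (sum_nonneg fun _ _ => abs_nonneg _) hs 3)
          (sum_weight_le hs hC hq)
          (sum_nonneg fun w _ => mul_nonneg (abs_nonneg _)
            (sum_nonneg fun i _ => sum_nonneg fun j _ => h0 w i j))
          (pow_nonneg X.size_nonneg 3)
    _ = _ := by ring

/-- Squared action of an expression. -/
theorem Expr.act_le (h : GoodWords β m C J) : ∀ (X : Expr ι) (a : ι → ℝ),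
    ∑ i, (X.mat J).mulVec a i ^ 2 ≤ max C 1 ^ X.deg * X.size ^ 2 * ∑ i, a i ^ 2
  | .coup, a => by
    simp only [Expr.mat, Expr.deg, Expr.size, pow_one, one_pow, mul_one]
    exact (h.2.2.1 a).trans
      (mul_le_mul_of_nonneg_right (le_max_left _ _) (sum_nonneg fun _ _ => sq_nonneg _))
  | .diag e, a => by
    simp only [Expr.mat, Expr.deg, Expr.size, pow_zero, one_mul, Matrix.mulVec_diagonal, mul_pow,
      mul_sum]
    refine sum_le_sum fun i _ => mul_le_mul_of_nonneg_right ?_ (sq_nonneg _)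
    rw [← sq_abs]
    exact pow_le_pow_left₀ (abs_nonneg _) (norm_le_pi_norm e i) 2
  | .mul X Y, a => by
    simp only [Expr.mat, ← Matrix.mulVec_mulVec, Expr.deg, Expr.size]
    refine (X.act_le h _).trans ?_
    have h1 : 0 ≤ max C 1 ^ X.deg * X.size ^ 2 :=
      mul_nonneg (pow_nonneg (le_max_of_le_right zero_le_one) _) (sq_nonneg _)
    refine (mul_le_mul_of_nonneg_left (Y.act_le h a) h1).trans (le_of_eq ?_)
    rw [pow_add]
    ring
  | .add X Y, a => by
    have hX := X.act_le h a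
    have hY := Y.act_le h a
    have hM : (1 : ℝ) ≤ max C 1 := le_max_right _ _
    have hSa : 0 ≤ ∑ i, a i ^ 2 := sum_nonneg fun _ _ => sq_nonneg _
    have hX' : ∑ i, (X.mat J).mulVec a i ^ 2
        ≤ max C 1 ^ (Expr.add X Y).deg * X.size ^ 2 * ∑ i, a i ^ 2 :=
      hX.trans (mul_le_mul_of_nonneg_right (mul_le_mul_of_nonneg_right
        (pow_le_pow_right₀ hM (le_max_left _ _)) (sq_nonneg _)) hSa)
    have hY' : ∑ i, (Y.mat J).mulVec a i ^ 2
        ≤ max C 1 ^ (Expr.add X Y).deg * Y.size ^ 2 * ∑ i, a i ^ 2 :=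
      hY.trans (mul_le_mul_of_nonneg_right (mul_le_mul_of_nonneg_right
        (pow_le_pow_right₀ hM (le_max_right _ _)) (sq_nonneg _)) hSa)
    set M := max C 1 ^ (Expr.add X Y).deg * ∑ i, a i ^ 2 with hMdef
    have hM0 : 0 ≤ M := mul_nonneg (pow_nonneg (zero_le_one.trans hM) _) hSa
    set p := fun i => (X.mat J).mulVec a i
    set q := fun i => (Y.mat J).mulVec a i
    have hcs := sum_mul_sq_le_sq_mul_sq univ p q
    have hx0 := X.size_nonneg
    have hy0 := Y.size_nonneg
    have hpq : ∑ i, p i * q i ≤ X.size * Y.size * M := by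
      refine le_trans (le_abs_self _) (abs_le_of_sq_le_sq ?_ (by positivity))
      calc _ ≤ (∑ i, p i ^ 2) * ∑ i, q i ^ 2 := hcs
        _ ≤ (X.size ^ 2 * M) * (Y.size ^ 2 * M) :=
          mul_le_mul (hX'.trans (le_of_eq (by rw [hMdef]; ring)))
            (hY'.trans (le_of_eq (by rw [hMdef]; ring))) (sum_nonneg fun _ _ => sq_nonneg _)
            (mul_nonneg (sq_nonneg _) hM0)
        _ = _ := by ring
    have hsum : ∑ i, ((Expr.add X Y).mat J).mulVec a i ^ 2
        = ∑ i, p i ^ 2 + 2 * ∑ i, p i * q i + ∑ i, q i ^ 2 := by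
      simp only [Expr.mat, Matrix.add_mulVec, Pi.add_apply, add_sq, sum_add_distrib, mul_sum,
        mul_assoc, p, q]
    rw [hsum]
    refine le_trans ?_ (le_of_eq (show (X.size + Y.size) ^ 2 * M
      = max C 1 ^ (Expr.add X Y).deg * (Expr.add X Y).size ^ 2 * ∑ i, a i ^ 2 by
        rw [hMdef, Expr.size]; ring))
    have hpp : ∑ i, p i ^ 2 ≤ X.size ^ 2 * M := hX'.trans (le_of_eq (by rw [hMdef]; ring))
    have hqq : ∑ i, q i ^ 2 ≤ Y.size ^ 2 * M := hY'.trans (le_of_eq (by rw [hMdef]; ring))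
    linear_combination hpp + hqq + 2 * hpq

end Vale.Agent.P150.Beta1.Algebra
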