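import Vale.Agent.P150.Beta1.Defs

/-!
# Fock model of the free values of words

A state is a function on lists of sites; a list of length `p + 1` is level `p`. A diagonal
multiplies the top site, `J` creates a level or annihilates one by `β² avg`. The free value of a
word is the level-zero part of the word applied to the vacuum.
-/

namespace Vale.Agent.P150.Beta1.Algebra

open Finset Real

variable {ι : Type*}

/-- States of the Fock model. -/
abbrev State (ι : Type*) := List ι → ℝ

/-- Multiplication of the top site by a diagonal. -/
def topMul (e : ι → ℝ) : State ι →ₗ[ℝ] State ι where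
  toFun v s :=
    match s with
    | [] => 0
    | i :: t => e i * v (i :: t)
  map_add' v w := by
    funext s
    cases s <;> simp [mul_add]
  map_smul' c v := by
    funext s
    cases s <;> simp [mul_left_comm]

/-- Creation: a new top site with weight one. -/
def push : State ι →ₗ[ℝ] State ι where
  toFun v s :=
    match s with
    | _ :: j :: t => v (j :: t)
    | _ => 0
  map_add' v w := by
    funext s
    rcases s with _ | ⟨i, _ | ⟨j, t⟩⟩ <;> simp
  map_smul' c v := by
    funext s
    rcases s with _ | ⟨i, _ | ⟨j, t⟩⟩ <;> simp

variable [Fintype ι]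

/-- Annihilation of the top site. -/
noncomputable def ann (β : ℝ) : State ι →ₗ[ℝ] State ι where
  toFun v s :=
    match s with
    | [] => 0
    | j :: t => β ^ 2 * avg fun i => v (i :: j :: t)
  map_add' v w := by
    funext s
    cases s <;> simp [avg, sum_add_distrib, add_div, mul_add]
  map_smul' c v := by
    funext s
    cases s with
    | nil => simp
    | cons j t =>
      simp only [Pi.smul_apply, smul_eq_mul, RingHom.id_apply, avg, ← mul_sum]
      ring

/-- The free coupling matrix. -/
noncomputable def opJ (β : ℝ) : State ι →ₗ[ℝ] State ι := push + ann β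

/-- The vacuum. -/
def vac : State ι := fun s => if s.length = 1 then 1 else 0

/-- States without levels above `p`. -/
def Low (p : ℕ) (v : State ι) : Prop := ∀ s : List ι, p + 1 < s.length → v s = 0

section simp

variable {β : ℝ} {e : ι → ℝ} {v : State ι} {i j : ι} {t : List ι}

omit [Fintype ι] in
@[simp] lemma topMul_cons : topMul e v (i :: t) = e i * v (i :: t) := rfl

omit [Fintype ι] in
@[simp] lemma topMul_nil : topMul e v [] = 0 := rfl

omit [Fintype ι] in
@[simp] lemma push_cons_cons : push v (i :: j :: t) = v (j :: t) := rfl

omit [Fintype ι] in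
@[simp] lemma push_single : push v [i] = 0 := rfl

omit [Fintype ι] in
@[simp] lemma push_nil : push v [] = 0 := rfl

@[simp] lemma ann_cons : ann β v (j :: t) = β ^ 2 * avg fun l => v (l :: j :: t) := rfl

@[simp] lemma ann_nil : ann β v [] = 0 := rfl

omit [Fintype ι] in
lemma vac_single : vac [i] = (1 : ℝ) := rfl

lemma opJ_apply : opJ β v = push v + ann β v := rfl

omit [Fintype ι] in
lemma topMul_topMul (d e : ι → ℝ) (v : State ι) :
    topMul d (topMul e v) = topMul (fun i => d i * e i) v := by
  funext s
  cases s <;> simp [mul_assoc]

lemma avg_mul_const (a : ι → ℝ) (c : ℝ) : (avg fun i => a i * c) = avg a * c := by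
  simp only [avg, ← sum_mul]
  ring

/-- Annihilating the site just created gives the average of its weight. -/
lemma ann_topMul_push (β : ℝ) (u e : ι → ℝ) (v : State ι) :
    ann β (topMul u (push (topMul e v))) = (β ^ 2 * avg u) • topMul e v := by
  funext s
  cases s with
  | nil => simp
  | cons j t => simp [avg_mul_const, mul_assoc]

end simp

section low

variable {β : ℝ} {p : ℕ} {v : State ι}

omit [Fintype ι] in
lemma Low.mono {q : ℕ} (h : Low p v) (hpq : p ≤ q) : Low q v :=
  fun s hs => h s (by omega)

omit [Fintype ι] in
lemma low_vac : Low (ι := ι) 0 vac := fun s hs => if_neg (by omega)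

omit [Fintype ι] in
lemma Low.topMul (h : Low p v) (e : ι → ℝ) : Low p (topMul e v) := by
  intro s hs
  cases s with
  | nil => rfl
  | cons i t => simp [h _ hs]

omit [Fintype ι] in
lemma Low.push (h : Low p v) : Low (p + 1) (push v) := by
  intro s hs
  rcases s with _ | ⟨i, _ | ⟨j, t⟩⟩
  · rfl
  · rfl
  · simp only [push_cons_cons]
    refine h _ ?_
    simp only [List.length_cons] at hs ⊢
    omega

lemma Low.ann (h : Low (p + 1) v) : Low p (ann β v) := by
  intro s hs
  cases s with
  | nil => rfl
  | cons j t =>
    have : (fun l => v (l :: j :: t)) = 0 := by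
      funext l
      refine h _ ?_
      simp only [List.length_cons] at hs ⊢
      omega
    simp [this, avg]

lemma ann_eq_zero (h : Low 0 v) : ann β v = 0 := by
  funext s
  cases s with
  | nil => rfl
  | cons j t =>
    have : (fun l => v (l :: j :: t)) = 0 := by
      funext l
      exact h _ (by simp [List.length_cons])
    simp [this, avg]

lemma Low.opJ (h : Low p v) : Low (p + 1) (opJ β v) := by
  intro s hs
  have h2 : Low p (Algebra.ann β v) := (h.mono (Nat.le_succ p)).ann
  simp [opJ_apply, h.push s hs, h2 s (by omega)]

end low

/-- The operator of a word `d J e₁ J … J eₘ`. -/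
noncomputable def wordOp (β : ℝ) : (ι → ℝ) → List (ι → ℝ) → State ι →ₗ[ℝ] State ι
  | d, [] => topMul d
  | d, e :: r => topMul d ∘ₗ opJ β ∘ₗ wordOp β e r

/-- Level zero of a word applied to the vacuum. -/
noncomputable def wordFree (β : ℝ) (d : ι → ℝ) (l : List (ι → ℝ)) (i : ι) : ℝ :=
  wordOp β d l vac [i]

/-- A word on the vacuum, split at the creation of its bottom level. -/
lemma wordOp_vac_bottom (β : ℝ) : ∀ (r : List (ι → ℝ)) (d : ι → ℝ) (i0 : ι) (s : List ι) (i : ι),
    wordOp β d r vac (i0 :: s ++ [i]) = ∑ j ∈ range r.length,
      wordOp β d (r.take j) vac (i0 :: s) * wordFree β (r.getD j 0) (r.drop (j + 1)) i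
  | [], d, i0, s, i => by
    simp [wordOp, vac]
  | e :: r, d, i0, s, i => by
    have ih := wordOp_vac_bottom β r e
    rw [List.length_cons, sum_range_succ']
    simp only [List.take_succ_cons, List.take_zero, List.getD_cons_succ, List.getD_cons_zero,
      List.drop_succ_cons, List.drop_zero]
    have hl : wordOp β d (e :: r) vac (i0 :: s ++ [i])
        = d i0 * (wordOp β e r vac (s ++ [i])
          + β ^ 2 * avg fun l => wordOp β e r vac (l :: i0 :: s ++ [i])) := by
      cases s <;> simp [wordOp, opJ_apply]
    rw [hl]
    have hann : (avg fun l => wordOp β e r vac (l :: i0 :: s ++ [i]))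
        = ∑ j ∈ range r.length, (avg fun l => wordOp β e (r.take j) vac (l :: i0 :: s))
            * wordFree β (r.getD j 0) (r.drop (j + 1)) i := by
      simp only [ih]
      simp only [avg, sum_div, sum_mul]
      rw [sum_comm]
      exact sum_congr rfl fun j _ => sum_congr rfl fun l _ => by ring
    rw [hann]
    cases s with
    | nil =>
      simp only [List.nil_append, wordOp, vac, topMul_cons, List.length_cons, List.length_nil,
        LinearMap.comp_apply, opJ_apply, Pi.add_apply, push_single, ann_cons, wordFree]
      simp [mul_sum, mul_add, mul_assoc, add_comm]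
    | cons i1 s' =>
      rw [ih i1 s' i]
      simp only [wordOp, vac, topMul_cons, List.length_cons, LinearMap.comp_apply, opJ_apply,
        Pi.add_apply, push_cons_cons, ann_cons, wordFree]
      simp [mul_sum, add_mul, mul_add, sum_add_distrib, mul_assoc]

/-- The free value of the definitions is the level-zero part of the Fock model. -/
theorem freeVal_eq_wordFree (β : ℝ) : ∀ (fuel : ℕ) (d : ι → ℝ) (l : List (ι → ℝ)),
    l.length ≤ fuel → freeVal β fuel d l = wordFree β d l
  | 0, d, [], _ => by funext i; simp [freeVal, wordFree, wordOp, vac]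
  | fuel + 1, d, [], _ => by funext i; simp [freeVal, wordFree, wordOp, vac]
  | 0, d, e :: r, h => by simp at h
  | fuel + 1, d, e :: r, h => by
    funext i
    simp only [List.length_cons, add_le_add_iff_right] at h
    have hsplit : ∀ l : ι, wordOp β e r vac [l, i] = ∑ j ∈ range r.length,
        wordFree β e (r.take j) l * wordFree β (r.getD j 0) (r.drop (j + 1)) i :=
      fun l => wordOp_vac_bottom β r e l [] i
    have hrhs : wordFree β d (e :: r) i
        = d i * (β ^ 2 * avg fun l => wordOp β e r vac [l, i]) := by
      simp [wordFree, wordOp, opJ_apply]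
    rw [hrhs, freeVal]
    simp only [hsplit]
    congr 1
    simp only [avg, mul_sum, sum_div, sum_mul]
    symm
    rw [sum_comm]
    refine sum_congr rfl fun j hj => ?_
    have hj' := mem_range.1 hj
    rw [freeVal_eq_wordFree β fuel e (r.take j) (by simp; omega),
      freeVal_eq_wordFree β fuel (r.getD j 0) (r.drop (j + 1)) (by simp; omega)]
    exact sum_congr rfl fun l _ => by ring

end Vale.Agent.P150.Beta1.Algebra
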